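import Mathlib

/-!
# P365-T1.5, Z10b-2 (a): comparison of finite measures on `ℝ` by their Poisson transforms

`le_of_poisson`: if `P_η μ ≤ P_η ν` everywhere for all `η > 0` then `μ ≤ ν`.
-/

set_option autoImplicit false

namespace P365L.Z0.H592

open MeasureTheory Set Filter Topology
open scoped ENNReal NNReal BoundedContinuousFunction

/-- the weight `1 / (1 + x²)` -/
noncomputable def wt (x : ℝ) : ℝ≥0∞ := ENNReal.ofReal (1 / (x ^ 2 + 1))

theorem measurable_wt : Measurable wt := by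
  unfold wt
  fun_prop

theorem lintegral_wt : ∫⁻ x, wt x = ENNReal.ofReal Real.pi := by
  unfold wt
  rw [← ofReal_integral_eq_lintegral_ofReal]
  · congr 1
    have h := integral_univ_inv_one_add_sq
    rw [← h]
    refine integral_congr_ae (ae_of_all _ fun x => ?_)
    simp only [one_div]
    rw [add_comm]
  · have h := integrable_inv_one_add_sq
    refine h.congr (ae_of_all _ fun x => ?_)
    simp only [one_div]
    rw [add_comm]
  · exact ae_of_all _ fun x => by positivity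

/-- the smoothing of `g`, in the scaled variable -/
theorem smooth_eq (g : ℝ → ℝ≥0∞) (hg : Measurable g) (t : ℝ) {η : ℝ} (hη : 0 < η) :
    ∫⁻ E : ℝ, g E * ENNReal.ofReal (η / ((t - E) ^ 2 + η ^ 2)) =
      ∫⁻ x : ℝ, g (t + η * x) * wt x := by
  set F : ℝ → ℝ≥0∞ := fun E => g E * ENNReal.ofReal (η / ((t - E) ^ 2 + η ^ 2)) with hF
  have hFm : Measurable F := by
    simp only [hF]
    fun_prop
  have h1 : ∫⁻ E : ℝ, F E = ∫⁻ E : ℝ, F (t + E) := (lintegral_add_left_eq_self F t).symm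
  have h2 : ∫⁻ E : ℝ, F (t + E) = ENNReal.ofReal η * ∫⁻ x : ℝ, F (t + η * x) := by
    have h3 := Real.smul_map_volume_mul_left hη.ne'
    rw [abs_of_pos hη] at h3
    conv_lhs => rw [← h3]
    rw [lintegral_smul_measure, smul_eq_mul, lintegral_map]
    · fun_prop
    · fun_prop
  rw [h1, h2, ← lintegral_const_mul]
  · refine lintegral_congr fun x => ?_
    simp only [hF, wt]
    rw [mul_left_comm]
    congr 1
    rw [← ENNReal.ofReal_mul hη.le]
    congr 1
    have h4 : (x ^ 2 + 1 : ℝ) ≠ 0 := by positivity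
    have h5 : (t - (t + η * x)) ^ 2 + η ^ 2 = η ^ 2 * (x ^ 2 + 1) := by ring
    rw [h5]
    have := hη.ne'
    field_simp
  · fun_prop

theorem kern_integrable {μ : Measure ℝ} [IsFiniteMeasure μ] (E : ℝ) {η : ℝ} (hη : 0 < η) :
    Integrable (fun t => η / ((t - E) ^ 2 + η ^ 2)) μ := by
  have hm : Measurable fun t : ℝ => η / ((t - E) ^ 2 + η ^ 2) := by fun_prop
  refine Integrable.of_bound (C := 1 / η) hm.aestronglyMeasurable (ae_of_all _ fun t => ?_)
  have h1 : 0 ≤ η / ((t - E) ^ 2 + η ^ 2) := by positivity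
  rw [Real.norm_of_nonneg h1, div_le_div_iff₀ (by positivity) hη]
  nlinarith [sq_nonneg (t - E)]

/-- pairing of a Poisson transform with a function -/
theorem pair_eq {μ : Measure ℝ} [IsFiniteMeasure μ] (g : ℝ → ℝ≥0∞) (hg : Measurable g) {η : ℝ}
    (hη : 0 < η) :
    ∫⁻ E : ℝ, g E * ENNReal.ofReal (∫ t, η / ((t - E) ^ 2 + η ^ 2) ∂μ) =
      ∫⁻ p : ℝ × ℝ, g (p.1 + η * p.2) * wt p.2 ∂(μ.prod volume) := by
  have h1 : ∀ E : ℝ, g E * ENNReal.ofReal (∫ t, η / ((t - E) ^ 2 + η ^ 2) ∂μ) =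
      ∫⁻ t, g E * ENNReal.ofReal (η / ((t - E) ^ 2 + η ^ 2)) ∂μ := by
    intro E
    rw [ofReal_integral_eq_lintegral_ofReal (kern_integrable E hη)
      (ae_of_all _ fun t => by positivity), lintegral_const_mul]
    fun_prop
  simp only [h1]
  rw [lintegral_lintegral_swap]
  · simp only [smooth_eq g hg _ hη]
    rw [lintegral_prod]
    have := measurable_wt
    fun_prop
  · refine Measurable.aemeasurable ?_
    fun_prop

/-- the limit of the pairings -/
theorem pair_tendsto {μ : Measure ℝ} [IsFiniteMeasure μ] (g : ℝ →ᵇ ℝ≥0) {η : ℕ → ℝ}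
    (hη0 : Tendsto η atTop (𝓝 0)) :
    Tendsto (fun k => ∫⁻ p : ℝ × ℝ, (g (p.1 + η k * p.2) : ℝ≥0∞) * wt p.2 ∂(μ.prod volume)) atTop
      (𝓝 ((∫⁻ t, (g t : ℝ≥0∞) ∂μ) * ENNReal.ofReal Real.pi)) := by
  have hwm := measurable_wt
  have hlim : (∫⁻ t, (g t : ℝ≥0∞) ∂μ) * ENNReal.ofReal Real.pi =
      ∫⁻ p : ℝ × ℝ, (g p.1 : ℝ≥0∞) * wt p.2 ∂(μ.prod volume) := by
    rw [lintegral_prod]
    · simp only
      have h1 : ∀ t : ℝ, ∫⁻ x, (g t : ℝ≥0∞) * wt x = (g t : ℝ≥0∞) * ENNReal.ofReal Real.pi := by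
        intro t
        rw [lintegral_const_mul _ hwm, lintegral_wt]
      simp only [h1]
      rw [lintegral_mul_const]
      exact g.continuous.measurable.coe_nnreal_ennreal
    · have := g.continuous.measurable.coe_nnreal_ennreal
      fun_prop
  rw [hlim]
  have hgm := g.continuous.measurable.coe_nnreal_ennreal
  obtain ⟨C, hC⟩ : ∃ C : ℝ≥0, ∀ x, g x ≤ C := by
    obtain ⟨C, hC⟩ := g.isBounded_range.bddAbove
    exact ⟨C, fun x => hC ⟨x, rfl⟩⟩
  refine tendsto_lintegral_of_dominated_convergence (fun p => (C : ℝ≥0∞) * wt p.2) ?_ ?_ ?_ ?_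
  · intro k
    have : Measurable fun p : ℝ × ℝ => (g (p.1 + η k * p.2) : ℝ≥0∞) :=
      hgm.comp (by fun_prop)
    fun_prop
  · intro k
    refine ae_of_all _ fun p => ?_
    have h1 : (g (p.1 + η k * p.2) : ℝ≥0∞) ≤ C := by exact_mod_cast hC _
    exact mul_le_mul' h1 le_rfl
  · rw [lintegral_prod _ (by fun_prop)]
    simp only
    have h1 : ∀ t : ℝ, ∫⁻ x, (C : ℝ≥0∞) * wt x = (C : ℝ≥0∞) * ENNReal.ofReal Real.pi := by
      intro t
      rw [lintegral_const_mul _ hwm, lintegral_wt]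
    simp only [lintegral_const_mul _ hwm, lintegral_wt, lintegral_const]
    exact ENNReal.mul_ne_top (ENNReal.mul_ne_top ENNReal.coe_ne_top ENNReal.ofReal_ne_top)
      (measure_ne_top μ _)
  · refine ae_of_all _ fun p => ?_
    refine ENNReal.Tendsto.mul_const ?_ (Or.inr (by unfold wt; exact ENNReal.ofReal_ne_top))
    have h1 : Tendsto (fun k => p.1 + η k * p.2) atTop (𝓝 (p.1 + 0 * p.2)) :=
      (hη0.mul_const _).const_add _
    rw [zero_mul, add_zero] at h1
    have h2 := (g.continuous.tendsto p.1).comp h1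
    exact (ENNReal.continuous_coe.tendsto _).comp h2

/-- comparison of measures by their Poisson transforms -/
theorem le_of_poisson {μ ν : Measure ℝ} [IsFiniteMeasure μ] [IsFiniteMeasure ν]
    (h : ∀ (E : ℝ) (η : ℝ), 0 < η → ∫ t, η / ((t - E) ^ 2 + η ^ 2) ∂μ ≤
      ∫ t, η / ((t - E) ^ 2 + η ^ 2) ∂ν) : μ ≤ ν := by
  -- bounded continuous functions
  have h1 : ∀ g : ℝ →ᵇ ℝ≥0, ∫⁻ t, (g t : ℝ≥0∞) ∂μ ≤ ∫⁻ t, (g t : ℝ≥0∞) ∂ν := by
    intro g
    set η : ℕ → ℝ := fun k => 1 / ((k : ℝ) + 1) with hηd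
    have hη : ∀ k, 0 < η k := fun k => by simp only [hηd]; positivity
    have hη0 : Tendsto η atTop (𝓝 0) := tendsto_one_div_add_atTop_nhds_zero_nat
    have h2 := le_of_tendsto_of_tendsto' (pair_tendsto (μ := μ) g hη0)
      (pair_tendsto (μ := ν) g hη0) (fun k => by
        rw [← pair_eq (μ := μ) (fun x => (g x : ℝ≥0∞)) g.continuous.measurable.coe_nnreal_ennreal
            (hη k),
          ← pair_eq (μ := ν) (fun x => (g x : ℝ≥0∞)) g.continuous.measurable.coe_nnreal_ennreal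
            (hη k)]
        refine lintegral_mono fun E => ?_
        have := h E (η k) (hη k)
        gcongr)
    have hpi : ENNReal.ofReal Real.pi ≠ 0 := by simpa using Real.pi_pos
    exact (ENNReal.mul_le_mul_iff_left hpi ENNReal.ofReal_ne_top).1 h2
  -- closed sets
  have h2 : ∀ F : Set ℝ, IsClosed F → μ F ≤ ν F := by
    intro F hF
    have hδ : ∀ k : ℕ, (0 : ℝ) < 1 / ((k : ℝ) + 1) := fun k => by positivity
    exact le_of_tendsto_of_tendsto'
      (tendsto_lintegral_thickenedIndicator_of_isClosed μ hF hδ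
        tendsto_one_div_add_atTop_nhds_zero_nat)
      (tendsto_lintegral_thickenedIndicator_of_isClosed ν hF hδ
        tendsto_one_div_add_atTop_nhds_zero_nat) fun k => h1 _
  refine Measure.le_iff.2 fun A hA => ?_
  rw [hA.measure_eq_iSup_isClosed_of_ne_top (measure_ne_top μ A)]
  refine iSup₂_le fun K hK => iSup_le fun hKc => ?_
  exact (h2 K hKc).trans (measure_mono hK)

end P365L.Z0.H592
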