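import Vale.Agent.P365.Inf.Box
import Vale.Agent.P365.Z0.H592.Cmp

/-!
# P365-T1.5, Z10b-2: a null set of all the site spectral measures is a null set of every spectral
measure
-/

set_option autoImplicit false

namespace P365L.Z0

open MeasureTheory Complex Filter Topology
open scoped ENNReal NNReal InnerProductSpace
open P365L.Inf

namespace H592

variable {V : Site → ℝ}

theorem kernel_eq {ψ : L2} {μ : Measure ℝ} (hμ : IsSpectralMeasure V ψ μ) (E : ℝ) {η : ℝ}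
    (hη : 0 < η) :
    ∫ t, η / ((t - E) ^ 2 + η ^ 2) ∂μ = η * ‖Res V (E + η * I) ψ‖ ^ 2 :=
  poisson_eq hμ E hη (res_spec V (hz_im E hη) ψ)

/-- `μ_{ψ+φ} ≤ 2 μ_ψ + 2 μ_φ` -/
theorem spec_add_le {ψ φ : L2} {μ μ₁ μ₂ : Measure ℝ} (hμ : IsSpectralMeasure V (ψ + φ) μ)
    (h₁ : IsSpectralMeasure V ψ μ₁) (h₂ : IsSpectralMeasure V φ μ₂) :
    μ ≤ (2 : ℝ≥0∞) • (μ₁ + μ₂) := by
  have := hμ.finite
  have := h₁.finite
  have := h₂.finite
  have hfin : IsFiniteMeasure ((2 : ℝ≥0∞) • (μ₁ + μ₂)) :=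
    Measure.smul_finite _ (by simp)
  refine le_of_poisson fun E η hη => ?_
  rw [integral_smul_measure, integral_add_measure (kern_integrable E hη) (kern_integrable E hη),
    kernel_eq hμ E hη, kernel_eq h₁ E hη, kernel_eq h₂ E hη, res_add (hz_im E hη)]
  have h3 := norm_add_le (Res V (E + η * I) ψ) (Res V (E + η * I) φ)
  have h4 := pow_le_pow_left₀ (norm_nonneg _) h3 2
  have h5 : (2 : ℝ≥0∞).toReal = 2 := by simp
  rw [h5, smul_eq_mul]
  set a := ‖Res V (E + η * I) ψ‖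
  set b := ‖Res V (E + η * I) φ‖
  have h6 : η * ‖Res V (E + η * I) ψ + Res V (E + η * I) φ‖ ^ 2 ≤ η * (a + b) ^ 2 :=
    mul_le_mul_of_nonneg_left h4 hη.le
  nlinarith [mul_nonneg hη.le (sq_nonneg (a - b))]

/-- `μ_{cψ} ≤ |c|² μ_ψ` -/
theorem spec_smul_le {ψ : L2} {c : ℂ} {μ μ₁ : Measure ℝ} (hμ : IsSpectralMeasure V (c • ψ) μ)
    (h₁ : IsSpectralMeasure V ψ μ₁) : μ ≤ ENNReal.ofReal (‖c‖ ^ 2) • μ₁ := by
  have := hμ.finite
  have := h₁.finite
  have hfin : IsFiniteMeasure (ENNReal.ofReal (‖c‖ ^ 2) • μ₁) :=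
    Measure.smul_finite _ ENNReal.ofReal_ne_top
  refine le_of_poisson fun E η hη => ?_
  rw [integral_smul_measure, kernel_eq hμ E hη, kernel_eq h₁ E hη, res_smul (hz_im E hη),
    norm_smul, ENNReal.toReal_ofReal (by positivity), smul_eq_mul]
  apply le_of_eq
  ring

/-- vectors whose spectral measures do not charge `B` -/
def Null (V : Site → ℝ) (B : Set ℝ) (ψ : L2) : Prop :=
  ∀ μ : Measure ℝ, IsSpectralMeasure V ψ μ → μ B = 0

theorem Null.add {B : Set ℝ} {ψ φ : L2} (h₁ : Null V B ψ) (h₂ : Null V B φ) :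
    Null V B (ψ + φ) := by
  intro μ hμ
  obtain ⟨μ₁, hμ₁, -⟩ := exists_spectralMeasure V ψ
  obtain ⟨μ₂, hμ₂, -⟩ := exists_spectralMeasure V φ
  have h := spec_add_le hμ hμ₁ hμ₂ B
  refine le_antisymm (h.trans (le_of_eq ?_)) zero_le
  simp [h₁ μ₁ hμ₁, h₂ μ₂ hμ₂]

theorem Null.smul {B : Set ℝ} {ψ : L2} (h₁ : Null V B ψ) (c : ℂ) : Null V B (c • ψ) := by
  intro μ hμ
  obtain ⟨μ₁, hμ₁, -⟩ := exists_spectralMeasure V ψ
  have h := spec_smul_le hμ hμ₁ B
  refine le_antisymm (h.trans (le_of_eq ?_)) zero_le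
  simp [h₁ μ₁ hμ₁]

theorem Null.zero {B : Set ℝ} : Null V B 0 := by
  intro μ hμ
  have := hμ.finite
  have h := mass_eq hμ
  rw [norm_zero, zero_pow two_ne_zero, measureReal_eq_zero_iff] at h
  exact measure_mono_null (Set.subset_univ B) h

theorem Null.sum {B : Set ℝ} (h : ∀ x, Null V B (dl x)) (c : Site → ℂ) (F : Finset Site) :
    Null V B (∑ x ∈ F, c x • dl x) := by
  classical
  induction F using Finset.induction_on with
  | empty => simpa using Null.zero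
  | insert a s ha ih =>
    rw [Finset.sum_insert ha]
    exact ((h a).smul _).add ih

/-- null sets of the site measures are null for all vectors -/
theorem null_all {B : Set ℝ} (h : ∀ x, Null V B (dl x)) (ψ : L2) : Null V B ψ := by
  intro μ hμ
  have := hμ.finite
  have key : ∀ δ : ℝ, 0 < δ → μ B ≤ ENNReal.ofReal (2 * δ ^ 2) := by
    intro δ hδ
    have hs := lp.hasSum_single (p := 2) (by simp) ψ
    obtain ⟨F, hF⟩ := (Metric.tendsto_nhds.1 hs δ hδ).exists
    set φ : L2 := ∑ x ∈ F, ψ x • dl x with hφ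
    have hφ' : φ = ∑ x ∈ F, lp.single 2 x (ψ x) := by
      refine Finset.sum_congr rfl fun x _ => ?_
      unfold dl
      rw [← lp.single_smul, smul_eq_mul, mul_one]
    rw [← hφ', dist_comm, dist_eq_norm] at hF
    obtain ⟨μ₁, hμ₁, -⟩ := exists_spectralMeasure V φ
    obtain ⟨μ₂, hμ₂, hmass⟩ := exists_spectralMeasure V (ψ - φ)
    have := hμ₂.finite
    have hμ' : IsSpectralMeasure V (φ + (ψ - φ)) μ := by rwa [add_sub_cancel]
    have h1 := spec_add_le hμ' hμ₁ hμ₂ B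
    have h2 : μ₁ B = 0 := Null.sum h (fun x => ψ x) F μ₁ hμ₁
    have h3 : μ₂ B ≤ ENNReal.ofReal (δ ^ 2) := by
      refine (measure_mono (Set.subset_univ B)).trans ?_
      rw [← ENNReal.ofReal_toReal (measure_ne_top μ₂ Set.univ)]
      refine ENNReal.ofReal_le_ofReal ?_
      have h4 : (μ₂ Set.univ).toReal = ‖ψ - φ‖ ^ 2 := hmass
      rw [h4]
      exact pow_le_pow_left₀ (norm_nonneg _) hF.le 2
    calc μ B ≤ ((2 : ℝ≥0∞) • (μ₁ + μ₂)) B := h1
      _ = 2 * (μ₁ B + μ₂ B) := by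
          rw [Measure.smul_apply, Measure.add_apply, smul_eq_mul]
      _ = 2 * μ₂ B := by rw [h2, zero_add]
      _ ≤ 2 * ENNReal.ofReal (δ ^ 2) := by gcongr
      _ = ENNReal.ofReal (2 * δ ^ 2) := by
          rw [ENNReal.ofReal_mul (by norm_num)]
          simp
  have hlim : Tendsto (fun n : ℕ => ENNReal.ofReal (2 * (1 / ((n : ℝ) + 1)) ^ 2)) atTop (𝓝 0) := by
    have h2 : Tendsto (fun n : ℕ => 2 * (1 / ((n : ℝ) + 1)) ^ 2) atTop (𝓝 (2 * 0 ^ 2)) :=
      ((tendsto_one_div_add_atTop_nhds_zero_nat (𝕜 := ℝ)).pow 2).const_mul 2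
    have h3 := ENNReal.tendsto_ofReal h2
    simpa using h3
  exact le_antisymm (ge_of_tendsto' hlim fun n => key _ (by positivity)) zero_le

end H592

/-- **all vectors**: a set which carries the spectral measures of the sites carries every spectral
measure -/
theorem all_psi {V : Site → ℝ} {S : Set ℝ} (_hS : MeasurableSet S)
    (h : ∀ (x : Site) (μ : Measure ℝ), IsSpectralMeasure V (dl x) μ → μ Sᶜ = 0) :
    ∀ (ψ : L2) (μ : Measure ℝ), IsSpectralMeasure V ψ μ → μ Sᶜ = 0 :=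
  fun ψ μ hμ => H592.null_all (fun x => h x) ψ μ hμ

end P365L.Z0
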